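import Vale.Agent.P057.Asym

/-! A lower bound for `r₄(N)` with a smaller constant in the exponent. -/

namespace Vale.Agent.Results.P057.FourAP

theorem result (c : ℝ) (hc : 2 * √(Real.logb 2 (64 / 19)) < c) :
    ∃ N₀ : ℕ, ∀ N : ℕ, N₀ ≤ N → ∃ A : Finset ℕ, A ⊆ Finset.Icc 1 N ∧
      (∀ a d : ℕ, 0 < d → ¬(a ∈ A ∧ a + d ∈ A ∧ a + 2 * d ∈ A ∧ a + 3 * d ∈ A)) ∧
      (N : ℝ) * (2 : ℝ) ^ (-(c * √(Real.logb 2 (N : ℝ)))) ≤ (A.card : ℝ) :=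
  Vale.Agent.P057.main c hc

end Vale.Agent.Results.P057.FourAP
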